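import Vale.Agent.P141.H389.RawT
import Vale.Agent.P141.H389.TVraw
import Vale.Agent.P141.H38.StkT
import Vale.Agent.P141.H336.TVp
import Vale.Agent.P141.H170.Win

/-!
# P141, line (A): the raw slot against the moving stack at hub `x3`

`pairACr : H505.Sk1.PairACr 65016`, from the middle step with the functions of time `k + 1`
(`H389.realT`, `H389.BT_le`, `H389.TV_rawT`), the stack family `H38.T.stkTR` and the families cut
to the roots (`H170.Win`).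
-/

namespace Vale.Agent.P141.H50

open Finset Matrix Vale.Agent.P141.PL Vale.Agent.P141.PL.H103 Vale.Agent.P141.H103
open Vale.Agent.P075 (Ix val phi delt rad GX res)
open Vale.Agent.P141.PL.H588 (hd Pl)
open Vale.Agent.P141.H585.PairCh (phs dls)
open Vale.Agent.P141.H505 (SG SD SC)
open Vale.Agent.P141.H336 (bsum bsum_mono bsum_nonneg bsum_add bsum_smul StkR EstR)
open Vale.Agent.P141.H92 (dh StO dls_nonneg gcs_le rad_symm')
open Vale.Agent.P141.H389 (Wf XW XWs gAC gC cAC eC eA rst BT TV)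
open Vale.Agent.P141.H293 (ms af)
open Vale.Agent.P141.H505.Sk1 (Ch Num NumA Wgt PairACr W3 eT eM dTh)

noncomputable section

open scoped Classical

/-- sums of a shifted sequence -/
theorem shift_le {k₀ N : ℕ} (hkN : k₀ ≤ N) {f : ℕ → ℝ} (h0 : ∀ k, 0 ≤ f k) (hN : f N = 0) :
    ∑ k ∈ Ico k₀ N, f (k + 1) ≤ ∑ k ∈ Ico k₀ N, f k := by
  have h1 : ∑ k ∈ Ico k₀ N, f (k + 1) = ∑ k ∈ Ico (k₀ + 1) (N + 1), f k :=
    Finset.sum_Ico_add' f k₀ N 1
  have h2 : ∑ k ∈ Ico (k₀ + 1) (N + 1), f k ≤ ∑ k ∈ Ico k₀ (N + 1), f k :=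
    Finset.sum_le_sum_of_subset_of_nonneg (Ico_subset_Ico (by omega) le_rfl)
      fun k _ _ => h0 k
  have h3 : ∑ k ∈ Ico k₀ (N + 1), f k = ∑ k ∈ Ico k₀ N, f k + f N :=
    Finset.sum_Ico_succ_top hkN f
  rw [h1]
  refine h2.trans ?_
  rw [h3, hN, add_zero]

section stk

variable {k₀ N : ℕ} {R S T : ℤ} {μ : ℝ} {J : ℕ}
  {W X₀ X₁ M₀ M₁ : ∀ k, ℕ → ℤ → ℤ → Matrix (Ix k) (Ix k) ℝ}
  {q p γ : ℕ → ℕ → ℤ → ℤ → ℝ} {H Qo Qm : ℕ → ℝ} {c : ℕ → ℤ}

/-- **All sums of the raw pair in one number**, the middle defects `g` below `γ`. -/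
theorem raw_num (hW : StkR k₀ N T S μ J W X₀ X₁ M₀ M₁ q p γ H Qo Qm) (oW : StO M₀ M₁)
    {j : ℕ} (hj : j ≤ J) {s : ℝ} (es : s = (μ / 4 ^ j)⁻¹) {g : ℕ → ℤ → ℤ → ℝ}
    (g0 : ∀ k n m, 0 ≤ g k n m) (hg : ∀ k n m, g k n m ≤ 4 * s * γ k (k + 1) n m)
    {τ TP Tp : ℝ} (hτ : 0 ≤ τ) (hTP0 : 0 ≤ TP) (hTP : TP ≤ Tp) :
    √(TP * TV k₀ N T S (fun k a n m => phs s (W k a n m)))
      + τ * s⁻¹ / 2 * ∑ k ∈ Ico k₀ N, GW N R S T (k + 1) (c (k + 1)) (fun _ n' m =>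
        dh s (W k k) n' m)
      + τ * s⁻¹ / 2 * ∑ k ∈ Ico k₀ N, GW N R S T (k + 1) (c (k + 1)) (fun _ n' m => g k n' m)
      ≤ √(400 * (s * (Tp * EstR N J H Qo Qm))) + 6 * τ * EstR N J H Qo Qm := by
  have hμ := hW.hμ
  have ps : 0 < s := by rw [es]; positivity
  have d1 : ∑ k ∈ Ico k₀ N, GW N R S T (k + 1) (c (k + 1)) (fun _ n' m => dh s (W k k) n' m)
      ≤ 8 * s * EstR N J H Qo Qm := by
    refine (sum_le_sum fun k _ => H92.GW_right N R S T (k + 1) (c (k + 1)) fun n m => ?_).trans ?_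
    · exact add_nonneg (dls_nonneg ps (hW.psd _ _ _ _) (hW.psd _ _ _ _))
        (dls_nonneg ps (hW.psd _ _ _ _) (hW.psd _ _ _ _))
    · have := H336.dh_sumR hW oW hj
      rw [← es] at this
      exact this
  have d2 : ∑ k ∈ Ico k₀ N, GW N R S T (k + 1) (c (k + 1)) (fun _ n' m => g k n' m)
      ≤ 4 * s * EstR N J H Qo Qm := by
    refine (sum_le_sum fun k _ => H92.GW_right N R S T (k + 1) (c (k + 1)) fun n m =>
      g0 k n m).trans ?_
    have h0 := hW.mid_diag 0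
    simp only [Nat.sub_zero, Nat.add_zero] at h0
    have key : ∀ k ∈ Ico k₀ N, bsum N T S (k + 1) (k + 1) (fun n m => g k n m)
        ≤ 4 * s * ((2 : ℝ) ^ (k + 1) * 2 ^ (k + 1) * ∑ m ∈ iv (N - (k + 1)) S,
          ∑ n ∈ iv (N - (k + 1)) T, γ k (k + 1) n m) := by
      intro k _
      refine (bsum_mono (g := fun n m => 4 * s * γ k (k + 1) n m)
        fun n m => hg k n m).trans (le_of_eq ?_)
      rw [bsum_smul]
      rfl
    refine (sum_le_sum key).trans ?_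
    rw [← mul_sum]
    have hX := hW.X_le
    exact mul_le_mul_of_nonneg_left (h0.trans hX) (by positivity : (0 : ℝ) ≤ 4 * s)
  have t2 := hW.TV_stack hj
  rw [← es] at t2
  have z2 : 0 ≤ TV k₀ N T S (fun k a n m => phs s (W k a n m)) :=
    H389.TV_nonneg fun k a n m => H336.phs_symm (hW.psd k a n m) ps
  have hE : 0 ≤ EstR N J H Qo Qm := hW.Est_nonneg
  have t3 : √(TP * TV k₀ N T S (fun k a n m => phs s (W k a n m)))
      ≤ √(400 * (s * (Tp * EstR N J H Qo Qm))) := by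
    have h1 := mul_le_mul hTP t2 z2 (hTP0.trans hTP)
    refine Real.sqrt_le_sqrt (h1.trans (le_of_eq ?_))
    ring
  have b1 : τ * s⁻¹ / 2 * (8 * s * EstR N J H Qo Qm) = 4 * τ * EstR N J H Qo Qm := by
    field_simp
    ring
  have b2 : τ * s⁻¹ / 2 * (4 * s * EstR N J H Qo Qm) = 2 * τ * EstR N J H Qo Qm := by
    field_simp
    ring
  have c1 := mul_le_mul_of_nonneg_left d1 (by positivity : 0 ≤ τ * s⁻¹ / 2)
  have c2 := mul_le_mul_of_nonneg_left d2 (by positivity : 0 ≤ τ * s⁻¹ / 2)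
  linarith

end stk

section mat

variable {κ : Type} [Fintype κ] [DecidableEq κ]

omit [DecidableEq κ] in
theorem quad_eq {L : Matrix κ κ ℝ} (hL : Lᵀ = L) (Y : Matrix κ κ ℝ) (v : κ → ℝ) :
    v ⬝ᵥ (L * Y * L) *ᵥ v = (L *ᵥ v) ⬝ᵥ Y *ᵥ (L *ᵥ v) := by
  have h : v ᵥ* L = L *ᵥ v := by
    rw [← mulVec_transpose, hL]
  rw [← mulVec_mulVec, ← mulVec_mulVec, dotProduct_mulVec v L, h]

omit [Fintype κ] [DecidableEq κ] in
theorem dW_eq (Th : ℤ → ℕ → ℤ → Matrix κ κ ℝ) (k : ℕ) (x z : ℤ) :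
    H389.dW Th x k (ix k z) = dTh Th k x z := by
  unfold H389.dW dTh
  have h : ix k z / 2 = ix (k + 1) z := by
    rw [← ix_ix k 1 z]
    rfl
  rw [h]

end mat

section pair

variable {κ : Type} [Fintype κ] [DecidableEq κ] {k₀ N : ℕ} {r1 r2 r3 : ℤ} {pl : ℕ → ℤ}
  {A : ℕ → ℤ → ℤ → ℝ} {b c : ℕ → ℤ → ℤ → κ → ℝ} {Th Nn M Nm : ℤ → ℕ → ℤ → Matrix κ κ ℝ}
  {E EA cC t2 : ℝ}

omit [DecidableEq κ] in
theorem eT_nonneg (h : Wf N Th Nn M Nm) (c : ℤ → ℤ → κ → ℝ) (k : ℕ) (x z : ℤ) :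
    0 ≤ eT c Th k x z := by
  have := (h.pd x k (ix k z)).posSemidef.dotProduct_mulVec_nonneg (c x z)
  rwa [star_trivial] at this

/-- the slot does not change at the last time -/
theorem not_Ch {α : Type} [Zero α] {N : ℕ} {R S : ℤ} {F : ℕ → ℤ → ℤ → α} {n m : ℤ} :
    ¬ Ch (H170.Win.cut N R S F) N n m := by
  rintro ⟨x, _, z, _, hne⟩
  apply hne
  unfold H170.Win.cut
  rw [min_eq_right (by omega : N ≤ N + 1), min_self]

/-- born masses, one scale later -/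
theorem born_A (hkN : k₀ ≤ N) (hA : NumA k₀ N r1 r2 r3 pl A c t2 EA) :
    ∑ k ∈ Ico k₀ N, eA N r2 r3 (rst (fun y m => Ch (H170.Win.cut N r2 r3 A) (k + 1)
      (ix (k + 1) y) m) (k + 1) (H170.Win.cut N r2 r3 A (k + 2))) ≤ EA := by
  refine (shift_le hkN (f := fun k => eA N r2 r3 (rst (fun y m =>
    Ch (H170.Win.cut N r2 r3 A) k (ix k y) m) k (H170.Win.cut N r2 r3 A (k + 1))))
    (fun k => sum_nonneg fun _ _ => sum_nonneg fun _ _ => sq_nonneg _) ?_).trans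
    (H170.Win.born_eA (H170.Win.NumA.cut hA))
  refine sum_eq_zero fun z _ => sum_eq_zero fun y _ => ?_
  unfold rst
  rw [if_neg not_Ch]
  simp

/-- born energy of the stack, one scale later -/
theorem born_C (hkN : k₀ ≤ N) (h : Wf N Th Nn M Nm)
    (hN : Num k₀ N r1 r2 r3 pl A b c Th M Nm E cC) :
    ∑ k ∈ Ico k₀ N, ∑ x ∈ iv N r1, ∑ z ∈ iv N r3,
      (if Ch (H170.Win.cut N r1 r3 c) (k + 1) (ix (k + 1) x) (ix (k + 1) z) then
        eT (H170.Win.cut N r1 r3 c (k + 2)) Th (k + 1) x z else 0) ≤ E := by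
  refine (shift_le hkN (f := fun k => ∑ x ∈ iv N r1, ∑ z ∈ iv N r3,
      (if Ch (H170.Win.cut N r1 r3 c) k (ix k x) (ix k z) then
        eT (H170.Win.cut N r1 r3 c (k + 1)) Th k x z else 0))
    (fun k => sum_nonneg fun _ _ => sum_nonneg fun _ _ => ?_) ?_).trans
    (H170.Win.Num.cut hN).born
  · split_ifs
    · exact eT_nonneg h _ _ _ _
    · exact le_rfl
  · refine sum_eq_zero fun z _ => sum_eq_zero fun y _ => ?_
    rw [if_neg not_Ch]

/-- cross energy, one scale later -/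
theorem cross_C (hkN : k₀ ≤ N) (h : Wf N Th Nn M Nm)
    (hN : Num k₀ N r1 r2 r3 pl A b c Th M Nm E cC) :
    ∑ k ∈ Ico k₀ N, GW N r2 r3 r1 (k + 1) (pl (k + 1)) (fun n n' m =>
      if Ch (H170.Win.cut N r2 r3 A) (k + 1) n m then
        (XW (H170.Win.cut N r1 r3 c (k + 2)) Th (k + 1) (k + 1) n' m).trace else 0) ≤ E := by
  have tr0 : ∀ (c : ℤ → ℤ → κ → ℝ) (k : ℕ) (n m : ℤ), 0 ≤ (XW c Th k k n m).trace :=
    fun c k n m => (H389.XW_psd h c k k n m).trace_nonneg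
  refine (shift_le hkN (f := fun k => GW N r2 r3 r1 k (pl k) (fun n n' m =>
      if Ch (H170.Win.cut N r2 r3 A) k n m then
        (XW (H170.Win.cut N r1 r3 c (k + 1)) Th k k n' m).trace else 0)) (fun k => ?_) ?_).trans
    ((sum_le_sum fun k _ => H389.GW_mo fun n n' m => ?_).trans (H170.Win.Num.cut hN).cross)
  · unfold GW
    refine mul_nonneg (by positivity) (sum_nonneg fun m _ => sum_nonneg fun n _ => ?_)
    beta_reduce
    split_ifs
    · exact tr0 _ _ _ _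
    · exact le_rfl
    · exact le_rfl
  · unfold GW
    refine mul_eq_zero_of_right _ (sum_eq_zero fun m _ => sum_eq_zero fun n _ => ?_)
    beta_reduce
    rw [if_neg (not_Ch (F := A) (n := n) (m := m)), ite_self]
  · by_cases h1 : Ch (H170.Win.cut N r2 r3 A) k n m
    · rw [if_pos h1, if_pos (Or.inl h1)]
      exact le_rfl
    · rw [if_neg h1]
      split_ifs
      · exact tr0 _ _ _ _
      · exact le_rfl

/-- the weighted changes of the slot -/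
theorem cAC_sum (h : Wf N Th Nn M Nm) (hN : Num k₀ N r1 r2 r3 pl A b c Th M Nm E cC) :
    ∑ k ∈ Ico k₀ N, cAC N r1 r3 (H170.Win.cut N r1 r3 c (k + 1)) Th M Nm k ≤ 2 * E := by
  have hN' := H170.Win.Num.cut hN
  have hv := hN'.var
  have hd' := hN'.dr
  have key : ∀ k ∈ Ico k₀ N, cAC N r1 r3 (H170.Win.cut N r1 r3 c (k + 1)) Th M Nm k ≤
      (∑ x ∈ iv N r1, ∑ z ∈ iv N r3, eM (H170.Win.cut N r1 r3 c (k + 1)) Th M k x z)
      + ∑ x ∈ iv N r1, ∑ z ∈ iv N r3, H170.Win.cut N r1 r3 c (k + 1) x z ⬝ᵥ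
        Nm x (k + 1) (ix (k + 1) z) *ᵥ H170.Win.cut N r1 r3 c (k + 1) x z := by
    intro k _
    unfold cAC
    rw [← sum_add_distrib]
    refine sum_le_sum fun x _ => ?_
    rw [← sum_add_distrib]
    refine sum_le_sum fun z _ => ?_
    set w := H170.Win.cut N r1 r3 c (k + 1) x z with hw
    have e1 := quad_eq (h.sM x (k + 1) (ix (k + 1) z)) (Th x (k + 1) (ix (k + 1) z))⁻¹ w
    have sT : ∀ k m, (Th x k m)ᵀ = Th x k m := fun k m =>
      P075.psd_isSymm (h.pd x k m).posSemidef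
    have sD : (dTh Th k x z)ᵀ = dTh Th k x z := by
      unfold dTh
      rw [transpose_sub, sT, sT]
    have e2 := quad_eq sD (Th x k (ix k z))⁻¹ w
    rw [dW_eq, e1, e2]
    have p1 : 0 ≤ (dTh Th k x z *ᵥ w) ⬝ᵥ (Th x k (ix k z))⁻¹ *ᵥ (dTh Th k x z *ᵥ w) := by
      have := (h.pd x k (ix k z)).inv.posSemidef.dotProduct_mulVec_nonneg (dTh Th k x z *ᵥ w)
      rwa [star_trivial] at this
    have p2 : 0 ≤ w ⬝ᵥ Nm x (k + 1) (ix (k + 1) z) *ᵥ w := by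
      have := (h.pNm x (k + 1) (ix (k + 1) z)).dotProduct_mulVec_nonneg w
      rwa [star_trivial] at this
    have e3 : eM (H170.Win.cut N r1 r3 c (k + 1)) Th M k x z =
        (M x (k + 1) (ix (k + 1) z) *ᵥ w) ⬝ᵥ (Th x (k + 1) (ix (k + 1) z))⁻¹ *ᵥ
          (M x (k + 1) (ix (k + 1) z) *ᵥ w)
        + (dTh Th k x z *ᵥ w) ⬝ᵥ (Th x k (ix k z))⁻¹ *ᵥ (dTh Th k x z *ᵥ w) := rfl
    rw [e3]
    linarith
  refine (sum_le_sum key).trans ?_
  rw [sum_add_distrib]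
  linarith

/-- the numbers of the stack -/
theorem cT_sum (hkN : k₀ ≤ N) (h : Wf N Th Nn M Nm)
    (hN : Num k₀ N r1 r2 r3 pl A b c Th M Nm E cC) (J : ℕ) :
    ∑ k ∈ Ico k₀ N, H38.T.cT J N r1 r3 Th M Nm
      (fun k x m => Ch (H170.Win.cut N r1 r3 c) k (ix k x) m) (H170.Win.cut N r1 r3 c) k ≤
      (64 * ((J : ℝ) + 1) ^ 3 + 2 * ((J : ℝ) + 1)) * E := by
  have hN' := H170.Win.Num.cut hN
  have hv := hN'.var
  have hd' := hN'.dr
  have hb := born_C hkN h hN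
  have s1 : ∑ k ∈ Ico k₀ N, ms N r1 r3 (H170.Win.cut N r1 r3 c (k + 1))
      (fun x m => M x (k + 1) m * (Th x (k + 1) m)⁻¹ * M x (k + 1) m) (k + 1) ≤ E := by
    refine (sum_le_sum fun k _ => ?_).trans hv
    unfold ms
    refine sum_le_sum fun x _ => sum_le_sum fun z _ => ?_
    set w := H170.Win.cut N r1 r3 c (k + 1) x z with hw
    have e1 := quad_eq (h.sM x (k + 1) (ix (k + 1) z)) (Th x (k + 1) (ix (k + 1) z))⁻¹ w
    rw [e1]
    have p1 : 0 ≤ (dTh Th k x z *ᵥ w) ⬝ᵥ (Th x k (ix k z))⁻¹ *ᵥ (dTh Th k x z *ᵥ w) := by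
      have := (h.pd x k (ix k z)).inv.posSemidef.dotProduct_mulVec_nonneg (dTh Th k x z *ᵥ w)
      rwa [star_trivial] at this
    exact le_add_of_nonneg_right p1
  have s2 : ∑ k ∈ Ico k₀ N, ms N r1 r3 (H170.Win.cut N r1 r3 c (k + 1))
      (fun x m => Nm x (k + 1) m) (k + 1) ≤ E := hd'
  have s3 : ∑ k ∈ Ico k₀ N, ms N r1 r3 (af (fun k x m =>
      Ch (H170.Win.cut N r1 r3 c) k (ix k x) m) (H170.Win.cut N r1 r3 c) (k + 1))
      (fun x m => Th x (k + 1) m) (k + 1) ≤ E := by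
    refine le_trans (le_of_eq ?_) hb
    refine sum_congr rfl fun k _ => ?_
    unfold ms
    refine sum_congr rfl fun x _ => sum_congr rfl fun z _ => ?_
    unfold af
    split_ifs
    · rfl
    · simp
  have e : ∑ k ∈ Ico k₀ N, H38.T.cT J N r1 r3 Th M Nm
      (fun k x m => Ch (H170.Win.cut N r1 r3 c) k (ix k x) m) (H170.Win.cut N r1 r3 c) k =
      64 * ((J : ℝ) + 1) ^ 3 * ∑ k ∈ Ico k₀ N, ms N r1 r3 (H170.Win.cut N r1 r3 c (k + 1))
      (fun x m => M x (k + 1) m * (Th x (k + 1) m)⁻¹ * M x (k + 1) m) (k + 1)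
      + ((J : ℝ) + 1) * ∑ k ∈ Ico k₀ N, ms N r1 r3 (H170.Win.cut N r1 r3 c (k + 1))
      (fun x m => Nm x (k + 1) m) (k + 1)
      + ((J : ℝ) + 1) * ∑ k ∈ Ico k₀ N, ms N r1 r3 (af (fun k x m =>
      Ch (H170.Win.cut N r1 r3 c) k (ix k x) m) (H170.Win.cut N r1 r3 c) (k + 1))
      (fun x m => Th x (k + 1) m) (k + 1) := by
    unfold H38.T.cT
    rw [mul_sum, mul_sum, mul_sum, ← sum_add_distrib, ← sum_add_distrib]
  rw [e]
  have j0 : (0 : ℝ) ≤ (J : ℝ) + 1 := by positivity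
  have m1 := mul_le_mul_of_nonneg_left s1 (by positivity : (0 : ℝ) ≤ 64 * ((J : ℝ) + 1) ^ 3)
  have m2 := mul_le_mul_of_nonneg_left s2 j0
  have m3 := mul_le_mul_of_nonneg_left s3 j0
  linarith

/-- the arithmetic at the end -/
theorem fin_num {j1 Y X Es E t : ℝ} (hj : 1 ≤ j1) (hY : 0 ≤ Y) (ht : 0 ≤ t)
    (hEs : Es ≤ 2144 * j1 ^ 3 * E) (hY' : Y = X * (t * E)) (hX : 0 ≤ X) :
    √(400 * (X * (308 * t * Es))) + 6 * t * Es ≤
      16253 * j1 ^ 3 * √Y + 12864 * j1 ^ 3 * (t * E) := by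
  have j3 : (1 : ℝ) ≤ j1 ^ 3 := one_le_pow₀ hj
  have a1 : 400 * (X * (308 * t * Es)) ≤ (16253 * j1 ^ 3) ^ 2 * Y := by
    have h1 : 400 * (X * (308 * t * Es)) ≤ 400 * (X * (308 * t * (2144 * j1 ^ 3 * E))) := by
      have : 0 ≤ 308 * t := by positivity
      gcongr
    have h2 : 400 * (X * (308 * t * (2144 * j1 ^ 3 * E))) = 264140800 * j1 ^ 3 * Y := by
      rw [hY']
      ring
    have h3 : 264140800 * j1 ^ 3 * Y ≤ (16253 * j1 ^ 3) ^ 2 * Y := by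
      refine mul_le_mul_of_nonneg_right ?_ hY
      nlinarith
    linarith
  have a2 : √(400 * (X * (308 * t * Es))) ≤ 16253 * j1 ^ 3 * √Y := by
    refine (Real.sqrt_le_sqrt a1).trans (le_of_eq ?_)
    rw [Real.sqrt_mul (by positivity), Real.sqrt_sq (by positivity)]
  have a3 : 6 * t * Es ≤ 12864 * j1 ^ 3 * (t * E) := by
    have := mul_le_mul_of_nonneg_left hEs (by positivity : 0 ≤ 6 * t)
    linarith
  linarith

end pair

/-- **The raw slot against the moving stack, hub `x3`.** -/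
theorem pairACr : PairACr 65016 := by
  intro κ _ _ k₀ N r1 r2 r3 pl β A b c Th Nn M Nm E EA cC t2 x2 J hkN hpl hw hN hA hx ht hcC
  have h := hw.wf
  rw [← H170.Win.lhs_cut (k₀ := k₀) (N := N) (r1 := r1) (r2 := r2) (r3 := r3) (pl := pl)
    (A := A) (c := c) (Th := Th) x2]
  have hN' := H170.Win.Num.cut hN
  have hA' := H170.Win.NumA.cut hA
  have hE0 : 0 ≤ E := (sum_nonneg fun x _ => sum_nonneg fun z _ => eT_nonneg h _ _ _ _).trans
    (hN.en k₀ le_rfl hkN k₀ le_rfl (by omega))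
  have hEA0 : 0 ≤ EA := (sum_nonneg fun x _ => sum_nonneg fun z _ => sq_nonneg _).trans
    (hA.en 0 (Nat.zero_le _))
  have bA := born_A hkN hA
  have bC := born_C hkN h hN
  have xC := cross_C hkN h hN
  have cC' := cAC_sum h hN
  have qC := cT_sum hkN h hN (J + 1)
  have capA := fun {k a : ℕ} (h1 : k₀ ≤ k) (h2 : k ≤ a) (h3 : a ≤ N) {j : ℕ} (h4 : k ≤ j)
    (h5 : j ≤ k + 1) (n m : ℤ) => H170.Win.capA_all ht.le hA h1 h2 h3 h4 h5 n m
  have capC := fun {k a : ℕ} (h1 : k₀ ≤ k) (h2 : k₀ ≤ a) (h3 : k ≤ N) (h4 : a ≤ N) {j : ℕ}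
    (h5 : min k a ≤ j) (h6 : j ≤ min k a + 1) (n m : ℤ) =>
    H170.Win.cap_all hN h1 h2 h3 h4 h5 h6 n m
  have enA : eA N r2 r3 (H170.Win.cut N r2 r3 A (k₀ + 1)) ≤ EA := by
    have e : H170.Win.cut N r2 r3 A (k₀ + 1) = H170.Win.cut N r2 r3 A (min (k₀ + 1) N) := by
      unfold H170.Win.cut
      rw [min_assoc, min_self]
    rw [e]
    exact hA'.en (min (k₀ + 1) N) (min_le_right _ _)
  have enC := hN'.en k₀ le_rfl hkN (k₀ + 1) (by omega) le_rfl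
  generalize hAe : H170.Win.cut N r2 r3 A = A' at *
  generalize hCe : H170.Win.cut N r1 r3 c = c' at *
  -- the stack
  have hμ : 0 < x2⁻¹ := inv_pos.2 hx
  have stk := H38.T.stkTR (k₀ := k₀) (N := N) hkN r1 r3 h
    (Q := fun k x m => Ch c' k (ix k x) m) (c := c')
    (fun k x m _ _ hq y hy => (H170.Win.row_eq hq hy).symm) hμ (J + 1)
    (fun k a n m h1 h2 h3 => by
      have hc := capC (k := k + 1) (a := a) (by omega) (by omega) (by omega) h3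
        (j := k + 1) (min_le_left _ _) (by omega) n m
      have hν : 0 ≤ x2⁻¹ / 4 ^ (J + 1) * 2 := by positivity
      have hν1 : x2⁻¹ / 4 ^ (J + 1) * 2 * cC ^ 2 ≤ 1 := by
        have e1 : x2⁻¹ / 4 ^ (J + 1) * 2 * cC ^ 2 ≤ x2⁻¹ / 4 ^ (J + 1) * 2 * (4 ^ J * x2) :=
          mul_le_mul_of_nonneg_left hcC hν
        have e2 : x2⁻¹ / 4 ^ (J + 1) * 2 * (4 ^ J * x2) = 1 / 2 := by
          rw [pow_succ]
          field_simp
          norm_num
        linarith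
      have h4 := (hc.smul hν).add (PosSemidef.one.smul
        (by linarith : 0 ≤ 1 - x2⁻¹ / 4 ^ (J + 1) * 2 * cC ^ 2))
      have e3 : (x2⁻¹ / 4 ^ (J + 1) * 2) • (cC ^ 2 • (1 : Matrix (Ix (k + 1)) (Ix (k + 1)) ℝ)
          - W3 (c' (k + 1)) Th (k + 1) a n m)
          + (1 - x2⁻¹ / 4 ^ (J + 1) * 2 * cC ^ 2) • (1 : Matrix (Ix (k + 1)) (Ix (k + 1)) ℝ)
          = 1 - (x2⁻¹ / 4 ^ (J + 1)) • (2 : ℝ) • XW (c' (k + 1)) Th (k + 1) a n m := by
        have e4 : W3 (c' (k + 1)) Th (k + 1) a n m = XW (c' (k + 1)) Th (k + 1) a n m := rfl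
        rw [e4]
        module
      rw [e3] at h4
      exact h4)
    (H := E) (Qm := (64 * (((J + 1 : ℕ) : ℝ) + 1) ^ 3 + 2 * (((J + 1 : ℕ) : ℝ) + 1)) * E) enC qC
  have es : x2 = (x2⁻¹ / 4 ^ 0)⁻¹ := by simp
  have key := H389.realT h hkN (R := r2) (S := r3) (T := r1) (pl := pl) hpl (τ := t2) (s := x2)
    hx ht.le A' c' (P := fun k z m => Ch A' k (ix k z) m)
    (Q := fun k x m => Ch c' k (ix k x) m)
    (fun k _ _ z m hq y hy => H170.Win.row_eq hq hy)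
    (fun k _ _ z m hq y hy => H170.Win.row_eq hq hy)
    (fun k h1 h2 n m => capA h1 (by omega) (by omega) (by omega) le_rfl n m)
    (fun k h1 h2 n m => capA (by omega) le_rfl h2 le_rfl (by omega) n m)
  have tvA := H389.TV_rawT hkN (R := r2) (S := r3) ht.le (A := A')
    (P := fun k z m => Ch A' k (ix k z) m)
    (fun k _ _ z m hq y hy => H170.Win.row_eq hq hy)
    (fun k a h1 h2 h3 n m => capA (by omega) h2 h3 le_rfl (by omega) n m)
    (fun k a h1 h2 h3 n m => capA h1 h2 h3 (by omega) le_rfl n m) enA bA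
  have bt := H389.BT_le h (k₀ := k₀) (R := r2) (S := r3) (T := r1) (pl := pl) hx ht.le A' c'
    (P := fun k z m => Ch A' k (ix k z) m) (Bo := fun k n m => Ch A' k n m)
    (fun k z m hq => hq)
    (fun k h1 h2 n m => capA (by omega) le_rfl h2 (by omega) le_rfl n m) bA xC
  have tv0 : 0 ≤ TV k₀ N r2 r3 (fun k => PA (A' (k + 1)) k) :=
    H389.TV_nonneg fun k a n m => P075.psd_isSymm (PA_psd _ _ _ _ _)
  have num := raw_num (R := r2) (c := pl) stk ⟨fun _ _ _ _ => rfl, fun _ _ _ _ => rfl⟩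
    (Nat.zero_le (J + 1)) es (g := fun k n m => gC (c' (k + 1)) Th x2 k (k + 1) n m)
    (fun k n m => by
      have hp := H389.phs_psd hx (H389.XW_psd h (c' (k + 1)) (k + 1) (k + 1) n m)
      exact P075.trace_mul_nonneg (V := rad (Ix k) * phs x2 (XWs (c' (k + 1)) Th k (k + 1) n m)
        * rad (Ix k)) hp (P075.psd_conj_symm hp (rad_symm' k)))
    (fun k n m => by
      have g1 := gcs_le (X := XWs (c' (k + 1)) Th k (k + 1) n m) (r := rad (Ix k))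
        (H389.XW_psd h (c' (k + 1)) (k + 1) (k + 1) n m) (rad_symm' k) hμ (Nat.zero_le (J + 1))
      rw [← es] at g1
      unfold H389.gC
      linarith)
    (τ := t2) ht.le tv0 tvA
  have eC' : ∑ k ∈ Ico k₀ N, eC N r1 r3 (rst (fun x m => Ch c' (k + 1) (ix (k + 1) x) m)
      (k + 1) (c' (k + 2))) Th (k + 1) ≤ E := by
    refine le_trans (le_of_eq ?_) bC
    refine sum_congr rfl fun k _ => ?_
    unfold eC
    refine sum_congr rfl fun x _ => sum_congr rfl fun z _ => ?_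
    unfold rst
    split_ifs
    · rfl
    · simp
  have est := H336.EstR_const (N := N) (J := J + 1) hE0 le_rfl
    (by positivity : 0 ≤ (64 * (((J + 1 : ℕ) : ℝ) + 1) ^ 3 + 2 * (((J + 1 : ℕ) : ℝ) + 1)) * E)
  have hj1 : (1 : ℝ) ≤ (J : ℝ) + 1 := by
    have : (0 : ℝ) ≤ J := Nat.cast_nonneg J
    linarith
  have hEs : EstR N (J + 1) (fun _ => E) (fun _ => 0)
      (fun _ => (64 * (((J + 1 : ℕ) : ℝ) + 1) ^ 3 + 2 * (((J + 1 : ℕ) : ℝ) + 1)) * E) ≤
      2144 * ((J : ℝ) + 1) ^ 3 * E := by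
    refine est.trans ?_
    push_cast
    have e1 : 4 * (((J : ℝ) + 1 + 1) * E + 0 + (64 * ((J : ℝ) + 1 + 1) ^ 3
        + 2 * ((J : ℝ) + 1 + 1)) * E)
        = 4 * (3 * ((J : ℝ) + 1 + 1) + 64 * ((J : ℝ) + 1 + 1) ^ 3) * E := by ring
    rw [e1]
    refine mul_le_mul_of_nonneg_right ?_ hE0
    set y := (J : ℝ) + 1 with hy
    have e2 : y + 1 ≤ 2 * y := by linarith
    have e3 : (y + 1) ^ 3 ≤ (2 * y) ^ 3 := pow_le_pow_left₀ (by linarith) e2 3
    have e4 : y ≤ y ^ 3 := by nlinarith [mul_self_nonneg (y - 1)]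
    nlinarith
  have fin := fin_num (Y := x2 * E * (t2 * EA)) (X := x2 * EA) hj1 (by positivity) ht.le hEs
    (by ring) (by positivity)
  have e5 : √(400 * (x2 * (308 * (t2 * EA) * EstR N (J + 1) (fun _ => E) (fun _ => 0)
      (fun _ => (64 * (((J + 1 : ℕ) : ℝ) + 1) ^ 3 + 2 * (((J + 1 : ℕ) : ℝ) + 1)) * E)))) =
      √(400 * (x2 * EA * (308 * t2 * EstR N (J + 1) (fun _ => E) (fun _ => 0)
      (fun _ => (64 * (((J + 1 : ℕ) : ℝ) + 1) ^ 3 + 2 * (((J + 1 : ℕ) : ℝ) + 1)) * E)))) := by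
    congr 1
    ring
  have e6 : √(t2 * EA) * √(x2 * E) = √(x2 * E * (t2 * EA)) := by
    rw [← Real.sqrt_mul (by positivity)]
    congr 1
    ring
  have hL : ∑ k ∈ Ico k₀ N, GW N r2 r3 r1 (k + 1) (pl (k + 1)) (fun n2 n1 m =>
      (PA (A' (k + 1)) (k + 1) (k + 1) n2 m * (hd (k + 1) *
        phs x2 (W3 (c' (k + 1)) Th (k + 1) (k + 1) n1 m) * hd (k + 1))).trace) =
      ∑ k ∈ Ico k₀ N, GW N r2 r3 r1 (k + 1) (pl (k + 1))
        (gAC (A' (k + 1)) (c' (k + 1)) Th x2 k (k + 1) (k + 1)) := rfl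
  rw [hL]
  rw [e6] at bt
  rw [e5] at num
  have j3 : (1 : ℝ) ≤ ((J : ℝ) + 1) ^ 3 := one_le_pow₀ hj1
  have w1 := mul_le_mul_of_nonneg_left cC' (by positivity : 0 ≤ 2 * t2)
  have w2 := mul_le_mul_of_nonneg_left eC' ht.le
  have w3 : √(x2 * E * (t2 * EA)) ≤ ((J : ℝ) + 1) ^ 3 * √(x2 * E * (t2 * EA)) :=
    le_mul_of_one_le_left (Real.sqrt_nonneg _) j3
  have w4 : t2 * E ≤ ((J : ℝ) + 1) ^ 3 * (t2 * E) :=
    le_mul_of_one_le_left (by positivity) j3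
  have w5 : 0 ≤ ((J : ℝ) + 1) ^ 3 * (t2 * E) := by positivity
  linarith

end

end Vale.Agent.P141.H50
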